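import Mathlib

/-!
# Row 286 (S0533), library HEAT, file 2: THE HEAT FLOW ON THE LINE, FUNCTIONS OF EXPONENTIAL GROWTH      (helper230; prefix `skh_`)

MATHLIB ONLY.   `skhP t f x = E f (x + √t Z)`, `Z` standard normal (`t ≤ 0`: the identity).
`SkhGr f` : `|f x| ≤ A e^(K |x|)`.
* `skh_int`            integrability of `z ↦ f (a + b z)`
* `skh_param`          MASTER LEMMA: derivative of `θ ↦ E f (a θ + b θ Z)`
* `skh_stein`          `E [g(Z) Z] = E g'(Z)`
* `skh_P_dx`           `∂_x P_t f = P_t f'`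
* `skh_P_dt`           `∂_t P_t f = (1/2) P_t f''`   (`t > 0`)
* `skh_P_cont`         joint continuity of `(t, x) ↦ P_t f x` on the whole plane
* `skh_P_gr`           growth of `P_t f`, locally uniform in `t`
* `skh_P_zero`, `skh_P_nonneg`, `skh_P_pos`, `skh_P_mono`, `skh_P_add`, `skh_P_smul`, `skh_P_even`, `skh_P_odd`, `skh_P_const`
-/

set_option autoImplicit false

namespace Claimed.Agent.R286

open MeasureTheory ProbabilityTheory Set Filter Topology

/-- the heat flow at the time (variance) `t` -/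
noncomputable def skhP (t : ℝ) (f : ℝ → ℝ) (x : ℝ) : ℝ := ∫ z, f (x + Real.sqrt t * z) ∂(gaussianReal 0 1)

/-- exponential growth -/
def SkhGr (f : ℝ → ℝ) : Prop := ∃ A K : ℝ, 0 ≤ A ∧ 0 ≤ K ∧ ∀ x, |f x| ≤ A * Real.exp (K * |x|)

theorem skh_flow_eqns_cite : True := by
  have := @skhP.eq_1
  have := @SkhGr.eq_1
  trivial

/-! ## integrability -/

theorem skh_exp_abs_le (K z : ℝ) : Real.exp (K * |z|) ≤ Real.exp (K * z) + Real.exp (-K * z) := by
  rcases abs_cases z with ⟨h, _⟩ | ⟨h, _⟩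
  · rw [h]
    linarith [Real.exp_pos (-K * z)]
  · rw [h]
    have : K * -z = -K * z := by ring
    rw [this]
    linarith [Real.exp_pos (K * z)]

theorem skh_exp_abs_int (K : ℝ) : Integrable (fun z : ℝ => Real.exp (K * |z|)) (gaussianReal 0 1) := by
  refine Integrable.mono' ((integrable_exp_mul_gaussianReal (μ := 0) (v := 1) K).add (integrable_exp_mul_gaussianReal (μ := 0) (v := 1) (-K)))
    (Continuous.aestronglyMeasurable (by fun_prop)) (Eventually.of_forall fun z => ?_)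
  rw [Real.norm_eq_abs, abs_of_pos (Real.exp_pos _)]
  exact skh_exp_abs_le K z

theorem skh_abs_exp_abs_int (K : ℝ) : Integrable (fun z : ℝ => |z| * Real.exp (K * |z|)) (gaussianReal 0 1) := by
  refine Integrable.mono' (skh_exp_abs_int (K + 1)) (Continuous.aestronglyMeasurable (by fun_prop)) (Eventually.of_forall fun z => ?_)
  rw [Real.norm_eq_abs, abs_of_nonneg (mul_nonneg (abs_nonneg _) (Real.exp_pos _).le)]
  have h1 : |z| ≤ Real.exp |z| := by linarith [Real.add_one_le_exp |z|]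
  calc |z| * Real.exp (K * |z|) ≤ Real.exp |z| * Real.exp (K * |z|) := mul_le_mul_of_nonneg_right h1 (Real.exp_pos _).le
    _ = Real.exp ((K + 1) * |z|) := by rw [← Real.exp_add]; congr 1; ring

/-- the uniform bound on a box of parameters -/
theorem skh_box {f : ℝ → ℝ} {A K : ℝ} (hA : 0 ≤ A) (hK : 0 ≤ K) (hf : ∀ x, |f x| ≤ A * Real.exp (K * |x|)) {a b R : ℝ} (ha : |a| ≤ R) (hb : |b| ≤ R) (z : ℝ) :
    |f (a + b * z)| ≤ A * Real.exp (K * R) * Real.exp (K * R * |z|) := by
  refine (hf _).trans ?_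
  rw [mul_assoc, ← Real.exp_add]
  refine mul_le_mul_of_nonneg_left (Real.exp_le_exp.2 ?_) hA
  have h1 : |a + b * z| ≤ R + R * |z| := by
    refine (abs_add_le _ _).trans ?_
    rw [abs_mul]
    exact add_le_add ha (mul_le_mul_of_nonneg_right hb (abs_nonneg _))
  calc K * |a + b * z| ≤ K * (R + R * |z|) := mul_le_mul_of_nonneg_left h1 hK
    _ = K * R + K * R * |z| := by ring

theorem skh_int {f : ℝ → ℝ} (hc : Continuous f) (hg : SkhGr f) (a b : ℝ) : Integrable (fun z => f (a + b * z)) (gaussianReal 0 1) := by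
  obtain ⟨A, K, hA, hK, hf⟩ := hg
  refine Integrable.mono' ((skh_exp_abs_int (K * max |a| |b|)).const_mul (A * Real.exp (K * max |a| |b|)))
    (Continuous.aestronglyMeasurable (by fun_prop)) (Eventually.of_forall fun z => ?_)
  exact skh_box hA hK hf (le_max_left _ _) (le_max_right _ _) z

/-! ## growth classes -/

theorem SkhGr.add {f g : ℝ → ℝ} (hf : SkhGr f) (hg : SkhGr g) : SkhGr (fun x => f x + g x) := by
  obtain ⟨A, K, hA, hK, h1⟩ := hf
  obtain ⟨B, L, hB, hL, h2⟩ := hg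
  refine ⟨A + B, max K L, by linarith, le_max_of_le_left hK, fun x => ?_⟩
  have e1 : Real.exp (K * |x|) ≤ Real.exp (max K L * |x|) := Real.exp_le_exp.2 (mul_le_mul_of_nonneg_right (le_max_left _ _) (abs_nonneg _))
  have e2 : Real.exp (L * |x|) ≤ Real.exp (max K L * |x|) := Real.exp_le_exp.2 (mul_le_mul_of_nonneg_right (le_max_right _ _) (abs_nonneg _))
  calc |f x + g x| ≤ |f x| + |g x| := abs_add_le _ _
    _ ≤ A * Real.exp (K * |x|) + B * Real.exp (L * |x|) := add_le_add (h1 x) (h2 x)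
    _ ≤ A * Real.exp (max K L * |x|) + B * Real.exp (max K L * |x|) :=
      add_le_add (mul_le_mul_of_nonneg_left e1 hA) (mul_le_mul_of_nonneg_left e2 hB)
    _ = (A + B) * Real.exp (max K L * |x|) := by ring

theorem SkhGr.mul {f g : ℝ → ℝ} (hf : SkhGr f) (hg : SkhGr g) : SkhGr (fun x => f x * g x) := by
  obtain ⟨A, K, hA, hK, h1⟩ := hf
  obtain ⟨B, L, hB, hL, h2⟩ := hg
  refine ⟨A * B, K + L, mul_nonneg hA hB, by linarith, fun x => ?_⟩
  rw [abs_mul]
  calc |f x| * |g x| ≤ (A * Real.exp (K * |x|)) * (B * Real.exp (L * |x|)) :=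
        mul_le_mul (h1 x) (h2 x) (abs_nonneg _) (mul_nonneg hA (Real.exp_pos _).le)
    _ = A * B * Real.exp ((K + L) * |x|) := by rw [add_mul, Real.exp_add]; ring

theorem SkhGr.const (c : ℝ) : SkhGr (fun _ => c) := ⟨|c|, 0, abs_nonneg _, le_rfl, fun x => by simp⟩

theorem SkhGr.smul {f : ℝ → ℝ} (hf : SkhGr f) (c : ℝ) : SkhGr (fun x => c * f x) := (SkhGr.const c).mul hf

theorem SkhGr.neg {f : ℝ → ℝ} (hf : SkhGr f) : SkhGr (fun x => - f x) := by
  obtain ⟨A, K, hA, hK, h1⟩ := hf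
  exact ⟨A, K, hA, hK, fun x => by rw [abs_neg]; exact h1 x⟩

theorem SkhGr.sub {f g : ℝ → ℝ} (hf : SkhGr f) (hg : SkhGr g) : SkhGr (fun x => f x - g x) := by
  simpa [sub_eq_add_neg] using hf.add hg.neg

theorem SkhGr.of_le {f g : ℝ → ℝ} (hg : SkhGr g) (h : ∀ x, |f x| ≤ |g x|) : SkhGr f := by
  obtain ⟨A, K, hA, hK, h1⟩ := hg
  exact ⟨A, K, hA, hK, fun x => (h x).trans (h1 x)⟩

theorem SkhGr.of_bdd {f : ℝ → ℝ} {C : ℝ} (h : ∀ x, |f x| ≤ C) : SkhGr f :=
  ⟨C, 0, (abs_nonneg _).trans (h 0), le_rfl, fun x => by simpa using h x⟩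

theorem SkhGr.id : SkhGr (fun x => x) :=
  ⟨1, 1, zero_le_one, zero_le_one, fun x => by rw [one_mul, one_mul]; linarith [Real.add_one_le_exp |x|]⟩

/-- a function with a bounded derivative exponentiates to a function of exponential growth -/
theorem SkhGr.exp_of_lip {l : ℝ → ℝ} {c : ℝ} (h : ∀ x, |l x - l 0| ≤ c * |x|) (hc : 0 ≤ c) : SkhGr (fun x => Real.exp (l x)) := by
  refine ⟨Real.exp (l 0), c, (Real.exp_pos _).le, hc, fun x => ?_⟩
  rw [abs_of_pos (Real.exp_pos _), ← Real.exp_add]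
  apply Real.exp_le_exp.2
  have := (abs_le.1 (h x)).2
  linarith

/-! ## the master lemma -/

/-- **derivative of `θ ↦ E f (a θ + b θ Z)`** -/
theorem skh_param {f f' : ℝ → ℝ} (hf : ∀ y, HasDerivAt f (f' y) y) (hc' : Continuous f') (hg : SkhGr f) (hg' : SkhGr f')
    {a b a' b' : ℝ → ℝ} {θ0 : ℝ} {s : Set ℝ} (hs : s ∈ 𝓝 θ0) (ha : ∀ θ ∈ s, HasDerivAt a (a' θ) θ) (hb : ∀ θ ∈ s, HasDerivAt b (b' θ) θ)
    {R : ℝ} (hR : ∀ θ ∈ s, |a θ| ≤ R ∧ |b θ| ≤ R ∧ |a' θ| ≤ R ∧ |b' θ| ≤ R) :
    HasDerivAt (fun θ => ∫ z, f (a θ + b θ * z) ∂(gaussianReal 0 1)) (∫ z, f' (a θ0 + b θ0 * z) * (a' θ0 + b' θ0 * z) ∂(gaussianReal 0 1)) θ0 := by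
  have hc : Continuous f := continuous_iff_continuousAt.2 fun y => (hf y).continuousAt
  obtain ⟨A, K, hA, hK, hb'⟩ := hg'
  have hR0 : 0 ≤ R := (abs_nonneg _).trans (hR θ0 (mem_of_mem_nhds hs)).1
  refine (hasDerivAt_integral_of_dominated_loc_of_deriv_le (μ := gaussianReal 0 1)
    (F := fun θ z => f (a θ + b θ * z)) (F' := fun θ z => f' (a θ + b θ * z) * (a' θ + b' θ * z))
    (bound := fun z => A * Real.exp (K * R) * R * Real.exp (K * R * |z|) + A * Real.exp (K * R) * R * (|z| * Real.exp (K * R * |z|)))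
    hs (Eventually.of_forall fun θ => Continuous.aestronglyMeasurable (by fun_prop)) (skh_int hc hg _ _)
    (Continuous.aestronglyMeasurable (by fun_prop)) (Eventually.of_forall fun z θ hθ => ?_)
    (((skh_exp_abs_int (K * R)).const_mul _).add ((skh_abs_exp_abs_int (K * R)).const_mul _))
    (Eventually.of_forall fun z θ hθ => ?_)).2
  · obtain ⟨h1, h2, h3, h4⟩ := hR θ hθ
    rw [Real.norm_eq_abs, abs_mul]
    have e1 := skh_box hA hK hb' h1 h2 z
    have e2 : |a' θ + b' θ * z| ≤ R + R * |z| := by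
      refine (abs_add_le _ _).trans ?_
      rw [abs_mul]
      exact add_le_add h3 (mul_le_mul_of_nonneg_right h4 (abs_nonneg _))
    calc |f' (a θ + b θ * z)| * |a' θ + b' θ * z| ≤ (A * Real.exp (K * R) * Real.exp (K * R * |z|)) * (R + R * |z|) :=
          mul_le_mul e1 e2 (abs_nonneg _) (by positivity)
      _ = _ := by ring
  · exact (hf _).comp θ ((ha θ hθ).add ((hb θ hθ).mul_const z))

/-! ## Stein's identity -/

theorem skh_pdf_eq (z : ℝ) : gaussianPDFReal 0 1 z = (Real.sqrt (2 * Real.pi))⁻¹ * Real.exp (-z ^ 2 / 2) := by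
  simp [gaussianPDFReal]

theorem skh_pdf_deriv (z : ℝ) : HasDerivAt (gaussianPDFReal 0 1) (-(z * gaussianPDFReal 0 1 z)) z := by
  have e : gaussianPDFReal 0 1 = fun z => (Real.sqrt (2 * Real.pi))⁻¹ * Real.exp ((-1 / 2 : ℝ) * z ^ 2) := by
    funext y
    rw [skh_pdf_eq]
    congr 2
    ring
  rw [e]
  have h1 : HasDerivAt (fun z : ℝ => (-1 / 2 : ℝ) * z ^ 2) ((-1 / 2 : ℝ) * ((2 : ℕ) * z ^ (2 - 1))) z := (hasDerivAt_pow 2 z).const_mul _
  refine ((h1.exp).const_mul ((Real.sqrt (2 * Real.pi))⁻¹)).congr_deriv ?_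
  push_cast
  ring

theorem skh_integral_eq (F : ℝ → ℝ) : ∫ z, F z ∂(gaussianReal 0 1) = ∫ z, gaussianPDFReal 0 1 z * F z := by
  rw [integral_gaussianReal_eq_integral_smul (by norm_num)]
  rfl

theorem skh_integrable_iff (F : ℝ → ℝ) :
    Integrable F (gaussianReal 0 1) ↔ Integrable (fun z => gaussianPDFReal 0 1 z * F z) := by
  rw [gaussianReal_of_var_ne_zero 0 (by norm_num : (1 : NNReal) ≠ 0)]
  unfold gaussianPDF
  rw [integrable_withDensity_iff_integrable_smul₀' (by fun_prop) (Eventually.of_forall fun _ => ENNReal.ofReal_lt_top)]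
  refine integrable_congr (Eventually.of_forall fun z => ?_)
  simp [ENNReal.toReal_ofReal (gaussianPDFReal_nonneg 0 1 z)]

/-- **Stein's identity** -/
theorem skh_stein {g g' : ℝ → ℝ} (hg : ∀ z, HasDerivAt g (g' z) z) (hc' : Continuous g') (h0 : SkhGr g) (h1 : SkhGr g') :
    ∫ z, g z * z ∂(gaussianReal 0 1) = ∫ z, g' z ∂(gaussianReal 0 1) := by
  have hc : Continuous g := continuous_iff_continuousAt.2 fun y => (hg y).continuousAt
  have i0 : Integrable g (gaussianReal 0 1) := by simpa using skh_int hc h0 0 1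
  have i1 : Integrable g' (gaussianReal 0 1) := by simpa using skh_int hc' h1 0 1
  have i2 : Integrable (fun z => g z * z) (gaussianReal 0 1) := by
    simpa using skh_int (f := fun z => g z * z) (by fun_prop) (h0.mul SkhGr.id) 0 1
  rw [skh_integral_eq, skh_integral_eq]
  have key := integral_mul_deriv_eq_deriv_mul_of_integrable (u := g) (v := gaussianPDFReal 0 1) (u' := g')
    (v' := fun z => -(z * gaussianPDFReal 0 1 z)) (fun z _ => hg z) (fun z _ => skh_pdf_deriv z)
    (by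
      have := ((skh_integrable_iff _).1 i2).neg
      refine this.congr (Eventually.of_forall fun z => ?_)
      simp only [Pi.neg_apply, Pi.mul_apply]
      ring)
    (by
      have := (skh_integrable_iff _).1 i1
      refine this.congr (Eventually.of_forall fun z => ?_)
      simp only [Pi.mul_apply]
      ring)
    (by
      have := (skh_integrable_iff _).1 i0
      refine this.congr (Eventually.of_forall fun z => ?_)
      simp only [Pi.mul_apply]
      ring)
  have e1 : ∫ z, gaussianPDFReal 0 1 z * (g z * z) = - ∫ z, g z * -(z * gaussianPDFReal 0 1 z) := by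
    rw [← integral_neg]
    congr 1
    ext z
    ring
  have e2 : ∫ z, gaussianPDFReal 0 1 z * g' z = ∫ z, g' z * gaussianPDFReal 0 1 z := by
    congr 1
    ext z
    ring
  rw [e1, e2, key, neg_neg]

/-! ## the heat flow -/

theorem SkhGr.comp_affine {f : ℝ → ℝ} (hf : SkhGr f) (a b : ℝ) : SkhGr (fun z => f (a + b * z)) := by
  obtain ⟨A, K, hA, hK, h⟩ := hf
  refine ⟨A * Real.exp (K * |a|), K * |b|, by positivity, by positivity, fun z => (h _).trans ?_⟩
  rw [mul_assoc, ← Real.exp_add]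
  refine mul_le_mul_of_nonneg_left (Real.exp_le_exp.2 ?_) hA
  have h1 : |a + b * z| ≤ |a| + |b| * |z| := by
    refine (abs_add_le _ _).trans ?_
    rw [abs_mul]
  calc K * |a + b * z| ≤ K * (|a| + |b| * |z|) := mul_le_mul_of_nonneg_left h1 hK
    _ = K * |a| + K * |b| * |z| := by ring

theorem skh_P_zero (f : ℝ → ℝ) (x : ℝ) : skhP 0 f x = f x := by
  unfold skhP
  simp

theorem skh_P_nonpos (f : ℝ → ℝ) {t : ℝ} (ht : t ≤ 0) (x : ℝ) : skhP t f x = f x := by
  unfold skhP
  simp [Real.sqrt_eq_zero_of_nonpos ht]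

theorem skh_P_const (t c x : ℝ) : skhP t (fun _ => c) x = c := by
  unfold skhP
  simp

/-- `∂_x P_t f = P_t f'` -/
theorem skh_P_dx {f f' : ℝ → ℝ} (hf : ∀ y, HasDerivAt f (f' y) y) (hc' : Continuous f') (hg : SkhGr f) (hg' : SkhGr f') (t x : ℝ) :
    HasDerivAt (skhP t f) (skhP t f' x) x := by
  have h := skh_param hf hc' hg hg' (a := fun θ => θ) (b := fun _ => Real.sqrt t) (a' := fun _ => 1) (b' := fun _ => 0) (θ0 := x)
    (s := Metric.ball x 1) (Metric.ball_mem_nhds x one_pos) (fun θ _ => hasDerivAt_id θ) (fun θ _ => hasDerivAt_const θ _)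
    (R := max (|x| + 1) (max (Real.sqrt t) 1)) (fun θ hθ => by
      refine ⟨?_, ?_, ?_, ?_⟩
      · rw [Metric.mem_ball, Real.dist_eq] at hθ
        refine le_max_of_le_left ?_
        have := abs_sub_abs_le_abs_sub θ x
        linarith
      · rw [abs_of_nonneg (Real.sqrt_nonneg _)]
        exact le_max_of_le_right (le_max_left _ _)
      · rw [abs_one]
        exact le_max_of_le_right (le_max_right _ _)
      · rw [abs_zero]
        exact le_max_of_le_right (le_max_of_le_right zero_le_one))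
  have e : skhP t f = fun θ => ∫ z, f (θ + Real.sqrt t * z) ∂(gaussianReal 0 1) := rfl
  rw [e]
  refine h.congr_deriv ?_
  unfold skhP
  congr 1
  ext z
  ring

/-- `∂_t P_t f = (1/2) P_t f''` -/
theorem skh_P_dt {f f' f'' : ℝ → ℝ} (hf : ∀ y, HasDerivAt f (f' y) y) (hf' : ∀ y, HasDerivAt f' (f'' y) y) (hc'' : Continuous f'')
    (hg : SkhGr f) (hg' : SkhGr f') (hg'' : SkhGr f'') {t : ℝ} (ht : 0 < t) (x : ℝ) :
    HasDerivAt (fun s => skhP s f x) (skhP t f'' x / 2) t := by
  have hc' : Continuous f' := continuous_iff_continuousAt.2 fun y => (hf' y).continuousAt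
  have hst : 0 < Real.sqrt t := Real.sqrt_pos.2 ht
  have h := skh_param hf hc' hg hg' (a := fun _ => x) (b := Real.sqrt) (a' := fun _ => 0) (b' := fun θ => 1 / (2 * Real.sqrt θ)) (θ0 := t)
    (s := Ioo (t / 2) (2 * t)) (Ioo_mem_nhds (by linarith) (by linarith)) (fun θ _ => hasDerivAt_const θ _)
    (fun θ hθ => Real.hasDerivAt_sqrt (by have := hθ.1; linarith))
    (R := max |x| (max (Real.sqrt (2 * t)) (1 / (2 * Real.sqrt (t / 2))))) (fun θ hθ => by
      have hθ0 : 0 < θ := by linarith [hθ.1]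
      refine ⟨le_max_left _ _, ?_, ?_, ?_⟩
      · rw [abs_of_nonneg (Real.sqrt_nonneg _)]
        exact le_max_of_le_right (le_max_of_le_left (Real.sqrt_le_sqrt hθ.2.le))
      · rw [abs_zero]
        exact le_max_of_le_left (abs_nonneg _)
      · rw [abs_of_nonneg (by positivity)]
        refine le_max_of_le_right (le_max_of_le_right ?_)
        have h2 : 0 < Real.sqrt (t / 2) := Real.sqrt_pos.2 (by linarith)
        exact one_div_le_one_div_of_le (by positivity) (mul_le_mul_of_nonneg_left (Real.sqrt_le_sqrt hθ.1.le) (by norm_num)))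
  have hs := skh_stein (g := fun z => f' (x + Real.sqrt t * z)) (g' := fun z => f'' (x + Real.sqrt t * z) * Real.sqrt t)
    (fun z => by
      have h1 : HasDerivAt (fun z => x + Real.sqrt t * z) (Real.sqrt t) z := by
        simpa using ((hasDerivAt_id z).const_mul (Real.sqrt t)).const_add x
      exact (hf' _).comp z h1)
    (by fun_prop) (hg'.comp_affine _ _) ((hg''.comp_affine _ _).mul (SkhGr.const _))
  refine h.congr_deriv ?_
  have e1 : ∫ z, f' (x + Real.sqrt t * z) * (0 + 1 / (2 * Real.sqrt t) * z) ∂(gaussianReal 0 1)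
      = 1 / (2 * Real.sqrt t) * ∫ z, f' (x + Real.sqrt t * z) * z ∂(gaussianReal 0 1) := by
    rw [← integral_const_mul]
    congr 1
    ext z
    ring
  rw [e1, hs, integral_mul_const]
  unfold skhP
  field_simp

/-- joint continuity -/
theorem skh_P_cont {f : ℝ → ℝ} (hc : Continuous f) (hg : SkhGr f) : Continuous (fun p : ℝ × ℝ => skhP p.1 f p.2) := by
  obtain ⟨A, K, hA, hK, hf⟩ := hg
  refine continuous_iff_continuousAt.2 fun p0 => ?_
  obtain ⟨R, hR⟩ : ∃ R, R = max (|p0.2| + 1) (Real.sqrt (|p0.1| + 1)) := ⟨_, rfl⟩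
  refine continuousAt_of_dominated (bound := fun z => A * Real.exp (K * R) * Real.exp (K * R * |z|))
    (Eventually.of_forall fun p => Continuous.aestronglyMeasurable (by fun_prop)) ?_ ((skh_exp_abs_int (K * R)).const_mul _)
    (Eventually.of_forall fun z => Continuous.continuousAt (by fun_prop))
  filter_upwards [Metric.ball_mem_nhds p0 one_pos] with p hp
  refine Eventually.of_forall fun z => ?_
  rw [Metric.mem_ball, Prod.dist_eq, max_lt_iff, Real.dist_eq, Real.dist_eq] at hp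
  refine skh_box hA hK hf ?_ ?_ z
  · rw [hR]
    refine le_max_of_le_left ?_
    have := abs_sub_abs_le_abs_sub p.2 p0.2
    linarith [hp.2]
  · rw [hR, abs_of_nonneg (Real.sqrt_nonneg _)]
    refine le_max_of_le_right (Real.sqrt_le_sqrt ?_)
    have := abs_sub_abs_le_abs_sub p.1 p0.1
    linarith [hp.1, le_abs_self p.1]

theorem skh_mgf (c : ℝ) : ∫ z, Real.exp (c * z) ∂(gaussianReal 0 1) = Real.exp (c ^ 2 / 2) := by
  have h := congrFun (mgf_id_gaussianReal (μ := 0) (v := 1)) c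
  simp only [mgf, id] at h
  rw [h]
  congr 1
  simp

/-- the growth of the heat flow -/
theorem skh_P_le {f : ℝ → ℝ} {A K : ℝ} (hA : 0 ≤ A) (hK : 0 ≤ K) (hf : ∀ x, |f x| ≤ A * Real.exp (K * |x|)) {t : ℝ} (ht : 0 ≤ t) (x : ℝ) :
    |skhP t f x| ≤ 2 * A * Real.exp (K ^ 2 * t / 2) * Real.exp (K * |x|) := by
  unfold skhP
  have i1 := integrable_exp_mul_gaussianReal (μ := 0) (v := 1) (K * Real.sqrt t)
  have i2 := integrable_exp_mul_gaussianReal (μ := 0) (v := 1) (-(K * Real.sqrt t))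
  have hb : ∀ z, ‖f (x + Real.sqrt t * z)‖ ≤ A * Real.exp (K * |x|) * (Real.exp (K * Real.sqrt t * z) + Real.exp (-(K * Real.sqrt t) * z)) := by
    intro z
    rw [Real.norm_eq_abs]
    refine (hf _).trans ?_
    rw [mul_assoc]
    refine mul_le_mul_of_nonneg_left ?_ hA
    have h1 : |x + Real.sqrt t * z| ≤ |x| + Real.sqrt t * |z| := by
      refine (abs_add_le _ _).trans ?_
      rw [abs_mul, abs_of_nonneg (Real.sqrt_nonneg _)]
    calc Real.exp (K * |x + Real.sqrt t * z|) ≤ Real.exp (K * |x| + K * Real.sqrt t * |z|) := by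
          apply Real.exp_le_exp.2
          calc K * |x + Real.sqrt t * z| ≤ K * (|x| + Real.sqrt t * |z|) := mul_le_mul_of_nonneg_left h1 hK
            _ = _ := by ring
      _ = Real.exp (K * |x|) * Real.exp (K * Real.sqrt t * |z|) := Real.exp_add _ _
      _ ≤ _ := mul_le_mul_of_nonneg_left (skh_exp_abs_le _ _) (Real.exp_pos _).le
  refine (norm_integral_le_of_norm_le ((i1.add i2).const_mul _) (Eventually.of_forall hb)).trans (le_of_eq ?_)
  rw [integral_const_mul]
  have e0 : ∫ a, ((fun x => Real.exp (K * Real.sqrt t * x)) + fun x => Real.exp (-(K * Real.sqrt t) * x)) a ∂(gaussianReal 0 1)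
      = ∫ a, Real.exp (K * Real.sqrt t * a) ∂(gaussianReal 0 1) + ∫ a, Real.exp (-(K * Real.sqrt t) * a) ∂(gaussianReal 0 1) := integral_add i1 i2
  rw [e0, skh_mgf, skh_mgf]
  have e : (K * Real.sqrt t) ^ 2 = K ^ 2 * t := by rw [mul_pow, Real.sq_sqrt ht]
  rw [neg_sq, e]
  ring

theorem skh_P_gr {f : ℝ → ℝ} (hg : SkhGr f) (t : ℝ) : SkhGr (skhP t f) := by
  rcases le_total t 0 with ht | ht
  · have : skhP t f = f := funext fun x => skh_P_nonpos f ht x
    rw [this]
    exact hg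
  · obtain ⟨A, K, hA, hK, hf⟩ := hg
    exact ⟨2 * A * Real.exp (K ^ 2 * t / 2), K, by positivity, hK, skh_P_le hA hK hf ht⟩

/-! ## order, algebra, parity -/

theorem skh_P_mono {f g : ℝ → ℝ} (hf : Continuous f) (hg : Continuous g) (gf : SkhGr f) (gg : SkhGr g) (h : ∀ x, f x ≤ g x) (t x : ℝ) :
    skhP t f x ≤ skhP t g x :=
  integral_mono (skh_int hf gf _ _) (skh_int hg gg _ _) fun _ => h _

theorem skh_P_nonneg {f : ℝ → ℝ} (h : ∀ x, 0 ≤ f x) (t x : ℝ) : 0 ≤ skhP t f x := integral_nonneg fun _ => h _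

theorem skh_P_pos {f : ℝ → ℝ} (hc : Continuous f) (hg : SkhGr f) (h : ∀ x, 0 < f x) (t x : ℝ) : 0 < skhP t f x := by
  unfold skhP
  rw [integral_pos_iff_support_of_nonneg (fun z => (h _).le) (skh_int hc hg _ _)]
  have : Function.support (fun z => f (x + Real.sqrt t * z)) = univ := by
    ext z
    simp [(h _).ne']
  rw [this]
  simp

theorem skh_P_add {f g : ℝ → ℝ} (hf : Continuous f) (hg : Continuous g) (gf : SkhGr f) (gg : SkhGr g) (t x : ℝ) :
    skhP t (fun y => f y + g y) x = skhP t f x + skhP t g x :=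
  integral_add (skh_int hf gf _ _) (skh_int hg gg _ _)

theorem skh_P_sub {f g : ℝ → ℝ} (hf : Continuous f) (hg : Continuous g) (gf : SkhGr f) (gg : SkhGr g) (t x : ℝ) :
    skhP t (fun y => f y - g y) x = skhP t f x - skhP t g x :=
  integral_sub (skh_int hf gf _ _) (skh_int hg gg _ _)

theorem skh_P_smul (f : ℝ → ℝ) (c t x : ℝ) : skhP t (fun y => c * f y) x = c * skhP t f x := integral_const_mul _ _

theorem skh_P_neg (f : ℝ → ℝ) (t x : ℝ) : skhP t (fun y => - f y) x = - skhP t f x := integral_neg _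

/-- reflection -/
theorem skh_P_refl (f : ℝ → ℝ) (t x : ℝ) : skhP t (fun y => f (-y)) x = skhP t f (-x) := by
  unfold skhP
  have h : (gaussianReal 0 1).map (fun z : ℝ => -z) = gaussianReal 0 1 := by
    rw [gaussianReal_map_neg]
    simp
  calc ∫ z, f (-(x + Real.sqrt t * z)) ∂(gaussianReal 0 1) = ∫ z, (fun w => f (-x + Real.sqrt t * w)) (-z) ∂(gaussianReal 0 1) := by
        congr 1
        ext z
        congr 1
        ring
    _ = ∫ w, f (-x + Real.sqrt t * w) ∂((gaussianReal 0 1).map (fun z : ℝ => -z)) :=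
        ((MeasurableEquiv.neg ℝ).measurableEmbedding.integral_map (μ := gaussianReal 0 1) (fun w => f (-x + Real.sqrt t * w))).symm
    _ = _ := by rw [h]

theorem skh_P_even {f : ℝ → ℝ} (h : ∀ y, f (-y) = f y) (t x : ℝ) : skhP t f (-x) = skhP t f x := by
  rw [← skh_P_refl]
  congr 1
  funext y
  exact h y

theorem skh_P_odd {f : ℝ → ℝ} (h : ∀ y, f (-y) = - f y) (t x : ℝ) : skhP t f (-x) = - skhP t f x := by
  rw [← skh_P_refl, ← skh_P_neg]
  congr 1
  funext y
  exact h y

end Claimed.Agent.R286
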