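import Mathlib

/-!
# Row 286 (S0533), library HEAT, file 1: THE WEAK PARABOLIC MAXIMUM PRINCIPLE ON A COMPACT CYLINDER      (helper230; prefix `skh_`)

MATHLIB ONLY.   FS = "Full support of the zero temperature SK order parameter", signs.tex, display (shape:barrier).
`skh_barrier` :  `u_t - u_xx / 2 - b u_x - c u ≥ 0`, `c ≤ C` on `(t0, t1] × (x0, x1)`, `u ≥ 0` at `t0`, `u ≥ -ε` on the lateral boundary   ⟹   `u ≥ -ε e^((max C 0 + 1)(t - t0))`.
Regularity: `u` continuous on the closed cylinder; LEFT time derivative, two space derivatives at the points of `(t0, t1] × (x0, x1)`.   No hypothesis on `b`.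
`skh_barrier0` : the case `ε = 0`.      `skh_exhaust` : exhaustion of a line / half-line / open half-line (lateral errors `→ 0`).      `skh_exhaust_le` : the same for subsolutions.
-/

set_option autoImplicit false

namespace Claimed.Agent.R286

open Set Filter Topology

/-- at a minimum over an interval the second derivative is nonnegative -/
theorem skh_second_nonneg {f f' : ℝ → ℝ} {f'' x a b : ℝ} (hx : x ∈ Ioo a b) (hf : ∀ y ∈ Ioo a b, HasDerivAt f (f' y) y)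
    (hf' : HasDerivAt f' f'' x) (hmin : ∀ y ∈ Ioo a b, f x ≤ f y) : 0 ≤ f'' := by
  have hloc : IsLocalMin f x := by
    filter_upwards [Ioo_mem_nhds hx.1 hx.2] with y hy using hmin y hy
  have h0 : f' x = 0 := hloc.hasDerivAt_eq_zero (hf x hx)
  by_contra hneg
  push Not at hneg
  have hs := hasDerivAt_iff_tendsto_slope.1 hf'
  have hev : ∀ᶠ y in 𝓝[≠] x, slope f' x y < 0 := hs.eventually (gt_mem_nhds hneg)
  rw [eventually_nhdsWithin_iff] at hev
  obtain ⟨δ, hδ, hball⟩ := Metric.eventually_nhds_iff.1 hev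
  obtain ⟨η, hη⟩ : ∃ η, η = min (δ / 2) ((b - x) / 2) := ⟨_, rfl⟩
  have hη0 : 0 < η := by
    rw [hη]
    exact lt_min (by linarith) (by linarith [hx.2])
  have hη1 : η ≤ δ / 2 := hη ▸ min_le_left _ _
  have hη2 : η ≤ (b - x) / 2 := hη ▸ min_le_right _ _
  have hneg' : ∀ y ∈ Ioo x (x + η), f' y < 0 := by
    intro y hy
    have h1 : dist y x < δ := by
      rw [Real.dist_eq, abs_of_pos (by linarith [hy.1])]
      linarith [hy.2]
    have h2 := hball h1 (show y ∈ ({x}ᶜ : Set ℝ) from ne_of_gt hy.1)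
    rw [slope_def_field, h0, sub_zero, div_neg_iff] at h2
    rcases h2 with h2 | h2
    · linarith [h2.2, hy.1]
    · exact h2.1
  obtain ⟨c, hc, hc'⟩ := exists_hasDerivAt_eq_slope f f' (show x < x + η by linarith)
    (fun y hy => (hf y ⟨by linarith [hx.1, hy.1], by linarith [hy.2]⟩).continuousAt.continuousWithinAt)
    (fun y hy => hf y ⟨by linarith [hx.1, hy.1], by linarith [hy.2]⟩)
  have h3 := hneg' c hc
  rw [hc', div_neg_iff] at h3
  have h4 := hmin (x + η) ⟨by linarith [hx.1], by linarith⟩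
  rcases h3 with h3 | h3
  · linarith [h3.2]
  · linarith [h3.1]

/-- at a minimum over a left interval the left derivative is nonpositive -/
theorem skh_left_nonpos {g : ℝ → ℝ} {g' t a : ℝ} (hat : a < t) (hg : HasDerivWithinAt g g' (Iic t) t)
    (hmin : ∀ s ∈ Ioo a t, g t ≤ g s) : g' ≤ 0 := by
  have hs := hasDerivWithinAt_iff_tendsto_slope.1 hg
  have e : Iic t \ {t} = Iio t := by
    ext y
    simp [lt_iff_le_and_ne]
  rw [e] at hs
  refine le_of_tendsto hs ?_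
  filter_upwards [Ioo_mem_nhdsLT hat] with s hs'
  rw [slope_def_field]
  exact div_nonpos_of_nonneg_of_nonpos (by linarith [hmin s hs']) (by linarith [hs'.2])

/-- **the weak maximum principle with lateral errors** (FS (shape:barrier)) -/
theorem skh_barrier {t0 t1 x0 x1 : ℝ} (u ut ux uxx b c : ℝ → ℝ → ℝ) (C ε : ℝ) (hε : 0 ≤ ε)
    (hcont : ContinuousOn (fun p : ℝ × ℝ => u p.1 p.2) (Icc t0 t1 ×ˢ Icc x0 x1))
    (hut : ∀ t ∈ Ioc t0 t1, ∀ x ∈ Ioo x0 x1, HasDerivWithinAt (fun s => u s x) (ut t x) (Iic t) t)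
    (hux : ∀ t ∈ Ioc t0 t1, ∀ x ∈ Ioo x0 x1, HasDerivAt (fun y => u t y) (ux t x) x)
    (huxx : ∀ t ∈ Ioc t0 t1, ∀ x ∈ Ioo x0 x1, HasDerivAt (fun y => ux t y) (uxx t x) x)
    (hc : ∀ t ∈ Ioc t0 t1, ∀ x ∈ Ioo x0 x1, c t x ≤ C)
    (hpde : ∀ t ∈ Ioc t0 t1, ∀ x ∈ Ioo x0 x1, 0 ≤ ut t x - uxx t x / 2 - b t x * ux t x - c t x * u t x)
    (hini : ∀ x ∈ Icc x0 x1, 0 ≤ u t0 x)
    (hlat : ∀ t ∈ Icc t0 t1, -ε ≤ u t x0 ∧ -ε ≤ u t x1) :
    ∀ t ∈ Icc t0 t1, ∀ x ∈ Icc x0 x1, -ε * Real.exp ((max C 0 + 1) * (t - t0)) ≤ u t x := by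
  intro t ht x hx
  obtain ⟨K, hK⟩ : ∃ K, K = max C 0 + 1 := ⟨_, rfl⟩
  rw [← hK]
  have hK1 : 1 ≤ K := by rw [hK]; linarith [le_max_right C 0]
  have hKC : C + 1 ≤ K := by rw [hK]; linarith [le_max_left C 0]
  -- the weighted function
  have hmc : ContinuousOn (fun p : ℝ × ℝ => u p.1 p.2 * Real.exp (-(K * (p.1 - t0)))) (Icc t0 t1 ×ˢ Icc x0 x1) :=
    hcont.mul (Continuous.continuousOn (by fun_prop))
  have hne : (Icc t0 t1 ×ˢ Icc x0 x1).Nonempty := ⟨(t, x), ht, hx⟩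
  obtain ⟨⟨ts, xs⟩, ⟨hts, hxs⟩, hmin⟩ := (isCompact_Icc.prod isCompact_Icc).exists_isMinOn hne hmc
  have hmin' : ∀ s ∈ Icc t0 t1, ∀ y ∈ Icc x0 x1, u ts xs * Real.exp (-(K * (ts - t0))) ≤ u s y * Real.exp (-(K * (s - t0))) :=
    fun s hs y hy => hmin (show (s, y) ∈ Icc t0 t1 ×ˢ Icc x0 x1 from ⟨hs, hy⟩)
  simp only [] at hts hxs
  have key : -ε ≤ u ts xs * Real.exp (-(K * (ts - t0))) := by
    by_contra hlt
    push Not at hlt
    have hE : 0 < Real.exp (-(K * (ts - t0))) := Real.exp_pos _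
    have hE1 : Real.exp (-(K * (ts - t0))) ≤ 1 := by
      rw [← Real.exp_zero]
      apply Real.exp_le_exp.2
      have := mul_nonneg (by linarith : (0 : ℝ) ≤ K) (sub_nonneg.2 hts.1)
      linarith
    have hun : u ts xs < 0 := by
      by_contra h
      push Not at h
      have := mul_nonneg h hE.le
      linarith
    -- not on the parabolic boundary
    have ht0 : t0 < ts := by
      rcases hts.1.eq_or_lt with h | h
      · exfalso
        have := hini xs hxs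
        rw [h] at this
        linarith
      · exact h
    have hlatb : ∀ y, -ε ≤ u ts y → -ε ≤ u ts y * Real.exp (-(K * (ts - t0))) := by
      intro y hy
      by_cases h0 : 0 ≤ u ts y
      · have := mul_nonneg h0 hE.le
        linarith
      · push Not at h0
        have h1 : u ts y * 1 ≤ u ts y * Real.exp (-(K * (ts - t0))) := mul_le_mul_of_nonpos_left hE1 h0.le
        linarith
    have hx0 : x0 < xs := by
      rcases hxs.1.eq_or_lt with h | h
      · exfalso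
        have := hlatb x0 (hlat ts hts).1
        rw [h] at this
        linarith
      · exact h
    have hx1 : xs < x1 := by
      rcases hxs.2.eq_or_lt with h | h
      · exfalso
        have := hlatb x1 (hlat ts hts).2
        rw [← h] at this
        linarith
      · exact h
    have htI : ts ∈ Ioc t0 t1 := ⟨ht0, hts.2⟩
    have hxI : xs ∈ Ioo x0 x1 := ⟨hx0, hx1⟩
    -- space
    have hminx : ∀ y ∈ Ioo x0 x1, u ts xs ≤ u ts y := by
      intro y hy
      have := hmin' ts hts y ⟨hy.1.le, hy.2.le⟩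
      exact le_of_mul_le_mul_right this hE
    have hloc : IsLocalMin (fun y => u ts y) xs := by
      filter_upwards [Ioo_mem_nhds hx0 hx1] with y hy using hminx y hy
    have h1 : ux ts xs = 0 := hloc.hasDerivAt_eq_zero (hux ts htI xs hxI)
    have h2 : 0 ≤ uxx ts xs := skh_second_nonneg hxI (fun y hy => hux ts htI y hy) (huxx ts htI xs hxI) hminx
    -- time
    have hd : HasDerivWithinAt (fun s => u s xs * Real.exp (-(K * (s - t0))))
        (ut ts xs * Real.exp (-(K * (ts - t0))) + u ts xs * (Real.exp (-(K * (ts - t0))) * (-(K * 1)))) (Iic ts) ts := by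
      refine (hut ts htI xs hxI).mul (HasDerivAt.hasDerivWithinAt ?_)
      exact (((hasDerivAt_id ts).sub_const t0).const_mul K).neg.exp
    have h3 := skh_left_nonpos ht0 hd (fun s hs => hmin' s ⟨hs.1.le, hs.2.le.trans hts.2⟩ xs hxs)
    have h4 : ut ts xs - K * u ts xs ≤ 0 := by
      have e : ut ts xs * Real.exp (-(K * (ts - t0))) + u ts xs * (Real.exp (-(K * (ts - t0))) * (-(K * 1)))
          = (ut ts xs - K * u ts xs) * Real.exp (-(K * (ts - t0))) := by ring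
      rw [e] at h3
      by_contra h
      push Not at h
      have := mul_pos h hE
      linarith
    have h5 := hpde ts htI xs hxI
    rw [h1] at h5
    have h6 : (K - c ts xs) * u ts xs < 0 := mul_neg_of_pos_of_neg (by linarith [hc ts htI xs hxI]) hun
    nlinarith
  have h7 := key.trans (hmin' t ht x hx)
  have hE : 0 < Real.exp (K * (t - t0)) := Real.exp_pos _
  have h8 := mul_le_mul_of_nonneg_right h7 hE.le
  rw [mul_assoc, ← Real.exp_add] at h8
  simpa using h8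

/-- the weak maximum principle, no error -/
theorem skh_barrier0 {t0 t1 x0 x1 : ℝ} (u ut ux uxx b c : ℝ → ℝ → ℝ) (C : ℝ)
    (hcont : ContinuousOn (fun p : ℝ × ℝ => u p.1 p.2) (Icc t0 t1 ×ˢ Icc x0 x1))
    (hut : ∀ t ∈ Ioc t0 t1, ∀ x ∈ Ioo x0 x1, HasDerivWithinAt (fun s => u s x) (ut t x) (Iic t) t)
    (hux : ∀ t ∈ Ioc t0 t1, ∀ x ∈ Ioo x0 x1, HasDerivAt (fun y => u t y) (ux t x) x)
    (huxx : ∀ t ∈ Ioc t0 t1, ∀ x ∈ Ioo x0 x1, HasDerivAt (fun y => ux t y) (uxx t x) x)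
    (hc : ∀ t ∈ Ioc t0 t1, ∀ x ∈ Ioo x0 x1, c t x ≤ C)
    (hpde : ∀ t ∈ Ioc t0 t1, ∀ x ∈ Ioo x0 x1, 0 ≤ ut t x - uxx t x / 2 - b t x * ux t x - c t x * u t x)
    (hini : ∀ x ∈ Icc x0 x1, 0 ≤ u t0 x)
    (hlat : ∀ t ∈ Icc t0 t1, 0 ≤ u t x0 ∧ 0 ≤ u t x1) :
    ∀ t ∈ Icc t0 t1, ∀ x ∈ Icc x0 x1, 0 ≤ u t x := by
  intro t ht x hx
  have := skh_barrier u ut ux uxx b c C 0 le_rfl hcont hut hux huxx hc hpde hini (by simpa using hlat) t ht x hx
  simpa using this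

/-- **exhaustion**: `J` = the region of the conclusion, `J'` = the region of the equation.   For every `ε > 0` every point of `J` lies in a compact interval `[x0, x1] ⊆ J`, `(x0, x1) ⊆ J'`,
with lateral values `≥ -ε`;   the bound `C` of the zeroth order coefficient does not depend on the truncation.   (FS: "to exhaust the line or half-line ..") -/
theorem skh_exhaust {t0 t1 : ℝ} (J J' : Set ℝ) (u ut ux uxx b c : ℝ → ℝ → ℝ) (C : ℝ)
    (hcont : ContinuousOn (fun p : ℝ × ℝ => u p.1 p.2) (Icc t0 t1 ×ˢ J))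
    (hut : ∀ t ∈ Ioc t0 t1, ∀ x ∈ J', HasDerivWithinAt (fun s => u s x) (ut t x) (Iic t) t)
    (hux : ∀ t ∈ Ioc t0 t1, ∀ x ∈ J', HasDerivAt (fun y => u t y) (ux t x) x)
    (huxx : ∀ t ∈ Ioc t0 t1, ∀ x ∈ J', HasDerivAt (fun y => ux t y) (uxx t x) x)
    (hc : ∀ t ∈ Ioc t0 t1, ∀ x ∈ J', c t x ≤ C)
    (hpde : ∀ t ∈ Ioc t0 t1, ∀ x ∈ J', 0 ≤ ut t x - uxx t x / 2 - b t x * ux t x - c t x * u t x)
    (hini : ∀ x ∈ J, 0 ≤ u t0 x)
    (hlat : ∀ ε : ℝ, 0 < ε → ∀ x ∈ J, ∃ x0 x1 : ℝ, x0 ≤ x ∧ x ≤ x1 ∧ Icc x0 x1 ⊆ J ∧ Ioo x0 x1 ⊆ J' ∧ ∀ t ∈ Icc t0 t1, -ε ≤ u t x0 ∧ -ε ≤ u t x1) :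
    ∀ t ∈ Icc t0 t1, ∀ x ∈ J, 0 ≤ u t x := by
  intro t ht x hx
  refine le_of_forall_pos_le_add fun η hη => ?_
  obtain ⟨E, hE⟩ : ∃ E, E = Real.exp ((max C 0 + 1) * (t - t0)) := ⟨_, rfl⟩
  have hE0 : 0 < E := hE ▸ Real.exp_pos _
  obtain ⟨x0, x1, h0, h1, hJ, hJ', hl⟩ := hlat (η / E) (by positivity) x hx
  have key := skh_barrier u ut ux uxx b c C (η / E) (by positivity) (hcont.mono (prod_mono le_rfl hJ))
    (fun t ht x hx => hut t ht x (hJ' hx)) (fun t ht x hx => hux t ht x (hJ' hx)) (fun t ht x hx => huxx t ht x (hJ' hx))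
    (fun t ht x hx => hc t ht x (hJ' hx)) (fun t ht x hx => hpde t ht x (hJ' hx)) (fun x hx => hini x (hJ hx)) hl t ht x ⟨h0, h1⟩
  rw [← hE] at key
  have e : -(η / E) * E = -η := by field_simp
  rw [e] at key
  linarith

/-- the comparison for SUBSOLUTIONS: `u_t - u_xx / 2 - b u_x - c u ≤ 0`, `u ≤ 0` initially, `u ≤ ε` laterally along an exhaustion   ⟹   `u ≤ 0` -/
theorem skh_exhaust_le {t0 t1 : ℝ} (J J' : Set ℝ) (u ut ux uxx b c : ℝ → ℝ → ℝ) (C : ℝ)
    (hcont : ContinuousOn (fun p : ℝ × ℝ => u p.1 p.2) (Icc t0 t1 ×ˢ J))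
    (hut : ∀ t ∈ Ioc t0 t1, ∀ x ∈ J', HasDerivWithinAt (fun s => u s x) (ut t x) (Iic t) t)
    (hux : ∀ t ∈ Ioc t0 t1, ∀ x ∈ J', HasDerivAt (fun y => u t y) (ux t x) x)
    (huxx : ∀ t ∈ Ioc t0 t1, ∀ x ∈ J', HasDerivAt (fun y => ux t y) (uxx t x) x)
    (hc : ∀ t ∈ Ioc t0 t1, ∀ x ∈ J', c t x ≤ C)
    (hpde : ∀ t ∈ Ioc t0 t1, ∀ x ∈ J', ut t x - uxx t x / 2 - b t x * ux t x - c t x * u t x ≤ 0)
    (hini : ∀ x ∈ J, u t0 x ≤ 0)
    (hlat : ∀ ε : ℝ, 0 < ε → ∀ x ∈ J, ∃ x0 x1 : ℝ, x0 ≤ x ∧ x ≤ x1 ∧ Icc x0 x1 ⊆ J ∧ Ioo x0 x1 ⊆ J' ∧ ∀ t ∈ Icc t0 t1, u t x0 ≤ ε ∧ u t x1 ≤ ε) :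
    ∀ t ∈ Icc t0 t1, ∀ x ∈ J, u t x ≤ 0 := by
  intro t ht x hx
  have key := skh_exhaust J J' (fun t x => - u t x) (fun t x => - ut t x) (fun t x => - ux t x) (fun t x => - uxx t x) b c C
    hcont.neg (fun t ht x hx => (hut t ht x hx).neg) (fun t ht x hx => (hux t ht x hx).neg) (fun t ht x hx => (huxx t ht x hx).neg) hc
    (fun t ht x hx => by have := hpde t ht x hx; ring_nf at this ⊢; linarith) (fun x hx => by have := hini x hx; linarith)
    (fun ε hε x hx => by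
      obtain ⟨x0, x1, h0, h1, hJ, hJ', hl⟩ := hlat ε hε x hx
      exact ⟨x0, x1, h0, h1, hJ, hJ', fun t ht => ⟨by linarith [(hl t ht).1], by linarith [(hl t ht).2]⟩⟩) t ht x hx
  linarith

end Claimed.Agent.R286
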